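import Vale.Agent.P181.TS.Spec

/-!
# P181, TS: the system of tests in all classes
-/

set_option autoImplicit false

namespace Vale.Agent.P181.TS.H237

open Finset Vale.Agent.P181.TS

/-- the tests of one class -/
lemma test_cls (hT : TestStmt) {b : ℕ} (C : Finset (Fin b)) (K : ℕ) (hC : 64 ≤ C.card)
    (hK : Nat.log 2 C.card + 2 ≤ K) :
    ∃ (y : Fin b → ℕ → Bool) (E : ℕ → Finset (Fin b × Fin b)),
      (∀ κ, ∀ e ∈ E κ, κ < K ∧ e.1 ∈ C ∧ e.2 ∈ C ∧ y e.1 κ ≠ y e.2 κ) ∧
      (∀ κ, (E κ).card ≤ 2 * C.card) ∧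
      (∀ κ u, ((E κ).filter fun e => e.1 = u ∨ e.2 = u).card ≤ 10) ∧
      ∀ ρ : Equiv.Perm (Fin b), (∀ u, ρ u ∈ C ↔ u ∈ C) →
        (∀ κ, ∀ e ∈ E κ, y (ρ e.1) κ ≠ y (ρ e.2) κ) → ∀ u ∈ C, ρ u = u := by
  classical
  obtain ⟨y0, E0, h1, h2, h3, h4⟩ := hT C.card hC
  let φ : C ≃ Fin C.card := C.equivFin
  let ψ : Fin C.card → Fin b := fun a => ((φ.symm a : C) : Fin b)
  have hψ : Function.Injective ψ := fun a a' h => φ.symm.injective (Subtype.ext h)
  have hψC : ∀ a, ψ a ∈ C := fun a => (φ.symm a).2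
  have hψφ : ∀ u (hu : u ∈ C), ψ (φ ⟨u, hu⟩) = u := fun u hu => by
    simp [ψ]
  let y : Fin b → ℕ → Bool := fun u κ =>
    if h : u ∈ C ∧ κ < Nat.log 2 C.card + 2 then y0 (φ ⟨u, h.1⟩) ⟨κ, h.2⟩ else false
  have hy : ∀ a (κ : Fin (Nat.log 2 C.card + 2)), y (ψ a) κ = y0 a κ := by
    intro a κ
    have h5 : ψ a ∈ C ∧ (κ : ℕ) < Nat.log 2 C.card + 2 := ⟨hψC a, κ.2⟩
    simp only [y]
    rw [dif_pos h5]
    congr 1
    simp [ψ]
  let E : ℕ → Finset (Fin b × Fin b) := fun κ =>
    if h : κ < Nat.log 2 C.card + 2 then (E0 ⟨κ, h⟩).image fun e => (ψ e.1, ψ e.2) else ∅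
  have hE : ∀ κ : Fin (Nat.log 2 C.card + 2), E κ = (E0 κ).image fun e => (ψ e.1, ψ e.2) := by
    intro κ
    simp only [E]
    rw [dif_pos κ.2]
  have hE0 : ∀ κ, ¬ κ < Nat.log 2 C.card + 2 → E κ = ∅ := by
    intro κ h
    simp only [E]
    rw [dif_neg h]
  refine ⟨y, E, ?_, ?_, ?_, ?_⟩
  · intro κ e he
    by_cases h : κ < Nat.log 2 C.card + 2
    · have h5 : e ∈ (E0 ⟨κ, h⟩).image fun e => (ψ e.1, ψ e.2) := by
        rw [← hE ⟨κ, h⟩]
        exact he
      obtain ⟨e0, he0, rfl⟩ := Finset.mem_image.1 h5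
      refine ⟨by omega, hψC _, hψC _, ?_⟩
      rw [hy e0.1 ⟨κ, h⟩, hy e0.2 ⟨κ, h⟩]
      exact h1 _ _ he0
    · rw [hE0 κ h] at he
      exact absurd he (Finset.notMem_empty _)
  · intro κ
    by_cases h : κ < Nat.log 2 C.card + 2
    · rw [hE ⟨κ, h⟩]
      exact Finset.card_image_le.trans (h2 _)
    · rw [hE0 κ h]
      simp
  · intro κ u
    by_cases h : κ < Nat.log 2 C.card + 2
    · by_cases hu : u ∈ C
      · rw [hE ⟨κ, h⟩]
        have h5 : (((E0 ⟨κ, h⟩).image fun e => (ψ e.1, ψ e.2)).filter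
            fun e => e.1 = u ∨ e.2 = u) ⊆ ((E0 ⟨κ, h⟩).filter fun e =>
              e.1 = φ ⟨u, hu⟩ ∨ e.2 = φ ⟨u, hu⟩).image fun e => (ψ e.1, ψ e.2) := by
          intro e he
          rw [Finset.mem_filter, Finset.mem_image] at he
          obtain ⟨⟨e0, he0, rfl⟩, h6⟩ := he
          rw [Finset.mem_image]
          refine ⟨e0, Finset.mem_filter.2 ⟨he0, ?_⟩, rfl⟩
          rcases h6 with h6 | h6
          · left
            apply hψ
            rw [hψφ u hu]
            exact h6
          · right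
            apply hψ
            rw [hψφ u hu]
            exact h6
        exact (Finset.card_le_card h5).trans (Finset.card_image_le.trans (h3 _ _))
      · have h5 : ((E κ).filter fun e => e.1 = u ∨ e.2 = u) = ∅ := by
          rw [Finset.filter_eq_empty_iff]
          intro e he h6
          have h7 : e ∈ (E0 ⟨κ, h⟩).image fun e => (ψ e.1, ψ e.2) := by
            rw [← hE ⟨κ, h⟩]
            exact he
          obtain ⟨e0, he0, rfl⟩ := Finset.mem_image.1 h7
          rcases h6 with h6 | h6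
          · exact hu (h6 ▸ hψC _)
          · exact hu (h6 ▸ hψC _)
        rw [h5]
        simp
    · rw [hE0 κ h]
      simp
  · intro ρ hρ hρ2 u hu
    let ρ1 : Equiv.Perm C := ρ.subtypePerm fun u => hρ u
    let ρ0 : Equiv.Perm (Fin C.card) := (φ.symm.trans ρ1).trans φ
    have h5 : ∀ a, ψ (ρ0 a) = ρ (ψ a) := by
      intro a
      simp [ψ, ρ0, ρ1, Equiv.Perm.subtypePerm_apply]
    have h6 : ρ0 = 1 := by
      apply h4
      intro κ e he
      have h7 := hρ2 κ (ψ e.1, ψ e.2) (by
        rw [hE κ]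
        exact Finset.mem_image_of_mem _ he)
      simp only at h7
      rw [← h5, ← h5, hy, hy] at h7
      exact h7
    have h8 := h5 (φ ⟨u, hu⟩)
    rw [h6, Equiv.Perm.one_apply, hψφ u hu] at h8
    exact h8.symm

/-- the number of classes of a block -/
lemma card_blk {R : ℕ} (r β : ℕ) (hr : 0 < r) :
    (univ.filter fun i : Fin R => (i : ℕ) / r = β).card ≤ r := by
  classical
  calc (univ.filter fun i : Fin R => (i : ℕ) / r = β).card ≤ (Finset.range r).card := by
        refine Finset.card_le_card_of_injOn (fun i => (i : ℕ) % r) ?_ ?_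
        · intro i _
          rw [Finset.coe_range, Set.mem_Iio]
          exact Nat.mod_lt _ hr
        · intro i hi j hj hij
          rw [Finset.mem_coe, Finset.mem_filter] at hi hj
          simp only at hij
          apply Fin.ext
          rw [← Nat.div_add_mod (i : ℕ) r, ← Nat.div_add_mod (j : ℕ) r, hi.2, hj.2, hij]
    _ = r := Finset.card_range r

/-- the colouring of the class `i` at the missed class `k` -/
def kap (r i k : ℕ) : ℕ := if k % r < i % r then k % r else k % r - 1

/-- **[TS-SYS]** -/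
theorem sys (hT : TestStmt) : SysStmt := by
  classical
  intro b r g e cl hr he hcl
  have hcb : ∀ i, (cls cl i).card ≤ b := fun i => by
    calc (cls cl i).card ≤ (univ : Finset (Fin b)).card := Finset.card_le_card (Finset.subset_univ _)
      _ = b := by simp
  have hex : ∀ i : Fin (g * r), ∃ (y : Fin b → ℕ → Bool) (E : ℕ → Finset (Fin b × Fin b)),
      (∀ κ, ∀ e ∈ E κ, κ < r - 1 ∧ e.1 ∈ cls cl i ∧ e.2 ∈ cls cl i ∧ y e.1 κ ≠ y e.2 κ) ∧
      (∀ κ, (E κ).card ≤ 2 * (cls cl i).card) ∧
      (∀ κ u, ((E κ).filter fun e => e.1 = u ∨ e.2 = u).card ≤ 10) ∧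
      ∀ ρ : Equiv.Perm (Fin b), (∀ u, ρ u ∈ cls cl i ↔ u ∈ cls cl i) →
        (∀ κ, ∀ e ∈ E κ, y (ρ e.1) κ ≠ y (ρ e.2) κ) → ∀ u ∈ cls cl i, ρ u = u := by
    intro i
    refine test_cls hT (cls cl i) (r - 1) (he.trans (hcl i).1) ?_
    have := Nat.log_mono_right (b := 2) (hcb i)
    omega
  choose yy EE h1 h2 h3 h4 using hex
  have hmc : ∀ i u, u ∈ cls cl i ↔ cl u = i := fun i u => by
    unfold cls
    rw [Finset.mem_filter]
    simp
  let y : Fin b → Fin (g * r) → Bool := fun u k => yy (cl u) u (kap r (cl u : ℕ) (k : ℕ))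
  let T : Finset (Tst b (g * r)) := univ.filter fun t => t.2.1 ≠ t.1 ∧
    (t.2.1 : ℕ) / r = (t.1 : ℕ) / r ∧ (t.2.2.1, t.2.2.2) ∈ EE t.1 (kap r t.1 t.2.1)
  have hmT : ∀ t : Tst b (g * r), t ∈ T ↔ t.2.1 ≠ t.1 ∧ (t.2.1 : ℕ) / r = (t.1 : ℕ) / r ∧
      (t.2.2.1, t.2.2.2) ∈ EE t.1 (kap r t.1 t.2.1) := fun t => by
    simp only [T, Finset.mem_filter, Finset.mem_univ, true_and]
  have hfib : ∀ (T' : Finset (Tst b (g * r))), T' ⊆ T → ∀ i k : Fin (g * r),
      (T'.filter fun t => t.1 = i ∧ t.2.1 = k).card ≤ 2 * (e + g * r) := by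
    intro T' hT' i k
    calc (T'.filter fun t => t.1 = i ∧ t.2.1 = k).card ≤ (EE i (kap r i k)).card := by
          refine Finset.card_le_card_of_injOn (fun t => (t.2.2.1, t.2.2.2)) ?_ ?_
          · intro t ht
            rw [Finset.mem_coe, Finset.mem_filter] at ht
            obtain ⟨h5, h6, h7⟩ := ht
            have h8 := ((hmT t).1 (hT' h5)).2.2
            rw [h6, h7] at h8
            exact h8
          · intro t ht t' ht' h
            rw [Finset.mem_coe, Finset.mem_filter] at ht ht'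
            simp only [Prod.mk.injEq] at h
            exact Prod.ext (ht.2.1.trans ht'.2.1.symm) (Prod.ext (ht.2.2.trans ht'.2.2.symm)
              (Prod.ext h.1 h.2))
      _ ≤ 2 * (cls cl i).card := h2 i _
      _ ≤ 2 * (e + g * r) := Nat.mul_le_mul_left _ (hcl i).2
  refine ⟨y, T, ?_, ?_, ?_, ?_, ?_⟩
  · intro t ht
    obtain ⟨h5, h6, h7⟩ := (hmT t).1 ht
    obtain ⟨h8, h9, h10, h11⟩ := h1 _ _ _ h7
    simp only at h9 h10 h11
    rw [hmc] at h9 h10
    refine ⟨h9, h10, ?_, h5, h6, ?_⟩
    · intro h12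
      rw [h12] at h11
      exact h11 rfl
    · simp only [y]
      rw [h9, h10]
      exact h11
  · intro β
    have h5 : ((T.filter fun t => (t.1 : ℕ) / r = β).image fun t => (t.1, t.2.1)) ⊆
        (univ.filter fun i : Fin (g * r) => (i : ℕ) / r = β) ×ˢ
          (univ.filter fun i : Fin (g * r) => (i : ℕ) / r = β) := by
      intro p hp
      obtain ⟨t, ht, rfl⟩ := Finset.mem_image.1 hp
      rw [Finset.mem_filter] at ht
      have h6 := ((hmT t).1 ht.1).2.1
      rw [Finset.mem_product, Finset.mem_filter, Finset.mem_filter]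
      exact ⟨⟨Finset.mem_univ _, ht.2⟩, Finset.mem_univ _, h6.trans ht.2⟩
    have h6 := Finset.card_le_mul_card_image (f := fun t : Tst b (g * r) => (t.1, t.2.1))
      (T.filter fun t => (t.1 : ℕ) / r = β) (2 * (e + g * r)) (by
        rintro ⟨i, k⟩ _
        refine le_trans (Finset.card_le_card ?_)
          (hfib (T.filter fun t => (t.1 : ℕ) / r = β) (Finset.filter_subset _ _) i k)
        intro t ht
        rw [Finset.mem_filter] at ht ⊢
        exact ⟨ht.1, congrArg Prod.fst ht.2, congrArg Prod.snd ht.2⟩)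
    refine h6.trans ?_
    calc 2 * (e + g * r) * ((T.filter fun t => (t.1 : ℕ) / r = β).image
          fun t => (t.1, t.2.1)).card ≤ 2 * (e + g * r) * (r * r) := by
          refine Nat.mul_le_mul_left _ ((Finset.card_le_card h5).trans ?_)
          rw [Finset.card_product]
          exact Nat.mul_le_mul (card_blk r β (by omega)) (card_blk r β (by omega))
      _ = 2 * r ^ 2 * (e + g * r) := by ring
  · intro k
    have h5 : ((T.filter fun t => t.2.1 = k).image fun t => t.1) ⊆
        univ.filter fun i : Fin (g * r) => (i : ℕ) / r = (k : ℕ) / r := by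
      intro p hp
      obtain ⟨t, ht, rfl⟩ := Finset.mem_image.1 hp
      rw [Finset.mem_filter] at ht
      have h6 := ((hmT t).1 ht.1).2.1
      rw [ht.2] at h6
      rw [Finset.mem_filter]
      exact ⟨Finset.mem_univ _, h6.symm⟩
    have h6 := Finset.card_le_mul_card_image (f := fun t : Tst b (g * r) => t.1)
      (T.filter fun t => t.2.1 = k) (2 * (e + g * r)) (by
        rintro i _
        refine le_trans (Finset.card_le_card ?_)
          (hfib (T.filter fun t => t.2.1 = k) (Finset.filter_subset _ _) i k)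
        intro t ht
        rw [Finset.mem_filter] at ht ⊢
        exact ⟨ht.1, ht.2, (Finset.mem_filter.1 ht.1).2⟩)
    refine h6.trans ?_
    calc 2 * (e + g * r) * ((T.filter fun t => t.2.1 = k).image fun t => t.1).card
        ≤ 2 * (e + g * r) * r :=
          Nat.mul_le_mul_left _ ((Finset.card_le_card h5).trans (card_blk r _ (by omega)))
      _ = 2 * r * (e + g * r) := by ring
  · intro u
    have hcu : ∀ t ∈ T.filter (fun t => t.2.2.1 = u ∨ t.2.2.2 = u), t.1 = cl u := by
      intro t ht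
      rw [Finset.mem_filter] at ht
      obtain ⟨h5, h6, h7⟩ := (hmT t).1 ht.1
      obtain ⟨h8, h9, h10, h11⟩ := h1 _ _ _ h7
      simp only at h9 h10
      rw [hmc] at h9 h10
      rcases ht.2 with h | h
      · rw [← h, h9]
      · rw [← h, h10]
    have h5 : ((T.filter fun t => t.2.2.1 = u ∨ t.2.2.2 = u).image fun t => t.2.1) ⊆
        univ.filter fun i : Fin (g * r) => (i : ℕ) / r = (cl u : ℕ) / r := by
      intro p hp
      obtain ⟨t, ht, rfl⟩ := Finset.mem_image.1 hp
      have h7 := hcu t ht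
      rw [Finset.mem_filter] at ht
      have h6 := ((hmT t).1 ht.1).2.1
      rw [h7] at h6
      rw [Finset.mem_filter]
      exact ⟨Finset.mem_univ _, h6⟩
    have h6 := Finset.card_le_mul_card_image (f := fun t : Tst b (g * r) => t.2.1)
      (T.filter fun t => t.2.2.1 = u ∨ t.2.2.2 = u) 10 (by
        rintro k _
        calc ((T.filter fun t => t.2.2.1 = u ∨ t.2.2.2 = u).filter fun t => t.2.1 = k).card
            ≤ ((EE (cl u) (kap r (cl u) k)).filter fun e => e.1 = u ∨ e.2 = u).card := by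
              refine Finset.card_le_card_of_injOn (fun t => (t.2.2.1, t.2.2.2)) ?_ ?_
              · intro t ht
                rw [Finset.mem_coe, Finset.mem_filter] at ht
                have h7 := hcu t ht.1
                have h8 := Finset.mem_filter.1 ht.1
                have h9 := ((hmT t).1 h8.1).2.2
                rw [h7, ht.2] at h9
                rw [Finset.mem_coe, Finset.mem_filter]
                exact ⟨h9, h8.2⟩
              · intro t ht t' ht' h
                rw [Finset.mem_coe, Finset.mem_filter] at ht ht'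
                simp only [Prod.mk.injEq] at h
                exact Prod.ext ((hcu t ht.1).trans (hcu t' ht'.1).symm)
                  (Prod.ext (ht.2.trans ht'.2.symm) (Prod.ext h.1 h.2))
          _ ≤ 10 := h3 _ _ _)
    refine h6.trans (Nat.mul_le_mul_left _ ((Finset.card_le_card h5).trans
      (card_blk r _ (by omega))))
  · intro ρ hρ hρ2
    ext u
    rw [Equiv.Perm.one_apply]
    congr 1
    refine h4 (cl u) ρ (fun v => ?_) ?_ u ((hmc _ _).2 rfl)
    · rw [hmc, hmc, hρ]
    · intro κ e' he'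
      obtain ⟨h5, h6, h7, h8⟩ := h1 _ _ _ he'
      rw [hmc] at h6 h7
      -- the class
      have hgr : (cl u : ℕ) / r < g := by
        rw [Nat.div_lt_iff_lt_mul (by omega)]
        exact (cl u).2
      obtain ⟨x, hx⟩ : ∃ x, x = if κ < (cl u : ℕ) % r then κ else κ + 1 := ⟨_, rfl⟩
      have hxr : x < r := by
        rw [hx]
        split_ifs <;> omega
      have hlt : (cl u : ℕ) / r * r + x < g * r := by
        have h9 : ((cl u : ℕ) / r + 1) * r ≤ g * r := Nat.mul_le_mul_right _ hgr
        have h10 : ((cl u : ℕ) / r + 1) * r = (cl u : ℕ) / r * r + r := by ring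
        omega
      have hmod : ((cl u : ℕ) / r * r + x) % r = x := by
        rw [Nat.add_comm, Nat.add_mul_mod_self_right, Nat.mod_eq_of_lt hxr]
      have hdiv : ((cl u : ℕ) / r * r + x) / r = (cl u : ℕ) / r := by
        rw [Nat.add_comm, Nat.add_mul_div_right _ _ (by omega), Nat.div_eq_of_lt hxr, zero_add]
      have hkap : kap r (cl u) ((cl u : ℕ) / r * r + x) = κ := by
        unfold kap
        rw [hmod, hx]
        split_ifs <;> omega
      have hne : (⟨(cl u : ℕ) / r * r + x, hlt⟩ : Fin (g * r)) ≠ cl u := by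
        intro h
        have h9 : (cl u : ℕ) / r * r + x = (cl u : ℕ) := congrArg Fin.val h
        have h10 : x = (cl u : ℕ) % r := by
          rw [← hmod, h9]
        rw [hx] at h10
        split_ifs at h10 <;> omega
      have h9 := hρ2 (cl u, ⟨(cl u : ℕ) / r * r + x, hlt⟩, e'.1, e'.2) (by
        rw [hmT]
        refine ⟨hne, hdiv, ?_⟩
        simp only
        rw [hkap]
        exact he')
      simp only [y] at h9
      rw [hρ, hρ, h6, h7, hkap] at h9
      exact h9

end Vale.Agent.P181.TS.H237
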